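import Vale.Agent.P199.Spec.Root

/-!
# From vanishing weight coordinates to block-scalar data; translations

Weight coordinates of a matrix on `(ι → ZMod 2) × (κ → ZMod 2)`: for a shift `a` and a character
`k`, the sum over `x` of `chi k x * M x (x + a)`.
-/

namespace Vale.Agent.P199.Spec

open Polynomial Matrix

variable {A : Type*} [CommRing A] {ι κ : Type*} [Fintype ι] [Fintype κ]

theorem zmod_two_cases (u : ZMod 2) : u = 0 ∨ u = 1 := by revert u; decide

theorem vec_add_self {σ : Type*} (b : σ → ZMod 2) : b + b = 0 := by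
  funext i; exact CharTwo.add_self_eq_zero (b i)

/-- The character of a point. -/
def chi {σ : Type*} [Fintype σ] (k x : σ → ZMod 2) : A :=
  if ∑ i, k i * x i = 0 then 1 else -1

theorem chi_add {σ : Type*} [Fintype σ] (k x y : σ → ZMod 2) :
    (chi k (x + y) : A) = chi k x * chi k y := by
  have h : ∀ u v : ZMod 2, (if u + v = 0 then (1 : A) else -1)
      = (if u = 0 then 1 else -1) * (if v = 0 then 1 else -1) := by
    intro u v
    have e : (1 : ZMod 2) + 1 = 0 := by decide
    rcases zmod_two_cases u with rfl | rfl <;> rcases zmod_two_cases v with rfl | rfl <;> simp [e]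
  simp only [chi, Pi.add_apply, mul_add, Finset.sum_add_distrib]
  exact h _ _

theorem chi_sum {σ : Type*} [Fintype σ] [DecidableEq σ] (d : σ → ZMod 2) :
    ∑ k : σ → ZMod 2, (chi k d : A) = if d = 0 then (2 : A) ^ Fintype.card σ else 0 := by
  split_ifs with h
  · subst h; simp [chi]
  · obtain ⟨i, hi⟩ := Function.ne_iff.mp h
    have hdi : d i = 1 := Fin.eq_one_of_ne_zero _ hi
    refine Finset.sum_involution (fun k _ => k + Pi.single i 1) (fun k _ => ?_) (fun k _ _ => ?_)
      (fun k _ => Finset.mem_univ _) (fun k _ => ?_)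
    · have : ∑ j, (k + Pi.single i (1 : ZMod 2) : σ → ZMod 2) j * d j = (∑ j, k j * d j) + 1 := by
        simp [add_mul, Finset.sum_add_distrib, Pi.single_apply, hdi]
      simp only [chi, this]
      generalize ∑ j, k j * d j = u
      have e : (1 : ZMod 2) + 1 = 0 := by decide
      rcases zmod_two_cases u with rfl | rfl <;> simp [e]
    · intro he
      have := congrFun he i
      simp at this
    · rw [add_assoc, vec_add_self, add_zero]

/-- Weight coordinate. -/
def coordFn (M : Matrix ((ι → ZMod 2) × (κ → ZMod 2)) ((ι → ZMod 2) × (κ → ZMod 2)) A)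
    [DecidableEq ι] [DecidableEq κ]
    (a k : (ι → ZMod 2) × (κ → ZMod 2)) : A :=
  ∑ x, chi k.1 x.1 * chi k.2 x.2 * M x (x + a)

variable [DecidableEq ι] [DecidableEq κ]

theorem coord_inversion (M : Matrix ((ι → ZMod 2) × (κ → ZMod 2)) ((ι → ZMod 2) × (κ → ZMod 2)) A)
    (a x : (ι → ZMod 2) × (κ → ZMod 2)) :
    ∑ k : (ι → ZMod 2) × (κ → ZMod 2), chi k.1 x.1 * chi k.2 x.2 * coordFn M a k
      = (2 : A) ^ (Fintype.card ι + Fintype.card κ) * M x (x + a) := by
  simp only [coordFn, Finset.mul_sum]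
  rw [Finset.sum_comm, Finset.sum_eq_single x]
  · rw [char_pair M a x x, if_pos rfl]
  · intro y _ hy
    rw [char_pair M a x y, if_neg, zero_mul]
    exact fun h => hy h.symm
  · simp
where
  char_pair (M : Matrix ((ι → ZMod 2) × (κ → ZMod 2)) ((ι → ZMod 2) × (κ → ZMod 2)) A)
      (a x y : (ι → ZMod 2) × (κ → ZMod 2)) :
      ∑ k : (ι → ZMod 2) × (κ → ZMod 2),
        chi k.1 x.1 * chi k.2 x.2 * (chi k.1 y.1 * chi k.2 y.2 * M y (y + a))
      = (if x = y then (2 : A) ^ (Fintype.card ι + Fintype.card κ) else 0) * M y (y + a) := by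
    have e : ∀ k : (ι → ZMod 2) × (κ → ZMod 2),
        chi k.1 x.1 * chi k.2 x.2 * (chi k.1 y.1 * chi k.2 y.2 * M y (y + a))
          = chi k.1 (x.1 + y.1) * chi k.2 (x.2 + y.2) * M y (y + a) := fun k => by
      rw [chi_add, chi_add]; ring
    rw [Finset.sum_congr rfl fun k _ => e k, ← Finset.sum_mul, Fintype.sum_prod_type]
    simp only []
    rw [← Finset.sum_mul_sum, chi_sum, chi_sum]
    congr 1
    have h1 : x.1 + y.1 = 0 ↔ x.1 = y.1 :=
      ⟨fun h => by rw [← add_zero x.1, ← vec_add_self y.1, ← add_assoc, h, zero_add],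
        fun h => h ▸ vec_add_self _⟩
    have h2 : x.2 + y.2 = 0 ↔ x.2 = y.2 :=
      ⟨fun h => by rw [← add_zero x.2, ← vec_add_self y.2, ← add_assoc, h, zero_add],
        fun h => h ▸ vec_add_self _⟩
    simp only [h1, h2, Prod.ext_iff]
    split_ifs <;> simp_all [pow_add]

theorem blocks_of_coords (h2 : IsUnit (2 : A))
    (M : Matrix ((ι → ZMod 2) × (κ → ZMod 2)) ((ι → ZMod 2) × (κ → ZMod 2)) A)
    (h : ∀ a k : (ι → ZMod 2) × (κ → ZMod 2), a.1 = 0 → (a.2 ≠ 0 ∨ k.2 ≠ 0) → coordFn M a k = 0) :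
    (∀ i b c, b ≠ c → M (i, b) (i, c) = 0) ∧ (∀ i b c, M (i, b) (i, b) = M (i, c) (i, c)) := by
  have hu : IsUnit ((2 : A) ^ (Fintype.card ι + Fintype.card κ)) := h2.pow _
  refine ⟨fun i b c hbc => ?_, fun i b c => ?_⟩
  · have e := coord_inversion M (0, b + c) (i, b)
    rw [Finset.sum_eq_zero fun k _ => by
      rw [h (0, b + c) k rfl (Or.inl fun h0 => hbc (by
        have : b + c + c = c := by rw [show b + c = 0 from h0, zero_add]
        rw [add_assoc, vec_add_self, add_zero] at this; exact this)), mul_zero]] at e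
    have := hu.mul_right_eq_zero.mp e.symm
    simpa [← add_assoc, vec_add_self] using this
  · have e1 := coord_inversion M 0 (i, b)
    have e2 := coord_inversion M 0 (i, c)
    rw [add_zero] at e1 e2
    refine hu.mul_left_cancel ?_
    rw [← e1, ← e2]
    refine Finset.sum_congr rfl fun k _ => ?_
    by_cases hk : k.2 = 0
    · simp [hk, chi]
    · rw [h 0 k rfl (Or.inr hk), mul_zero, mul_zero]

theorem rootPoly_translate {n : Type*} [Fintype n] [DecidableEq n] (q r : ℕ) (hr : IsUnit (r : A))
    (hr0 : r ≠ 0) (hn : Fintype.card n = r * q) (z : Matrix n n A) (c : A)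
    [Nontrivial A] :
    rootPoly q r (z + Matrix.scalar n c).charpoly = (rootPoly q r z.charpoly).comp (X - C c) := by
  have hd : z.charpoly.natDegree = r * q := (Matrix.charpoly_natDegree_eq_dim z).trans hn
  obtain ⟨h1, h2, h3⟩ := rootPoly_spec q r hr hr0 (Matrix.charpoly_monic z) hd
  have hc : (z + Matrix.scalar n c).charpoly = z.charpoly.comp (X - C c) := by
    rw [← sub_neg_eq_add, ← map_neg (Matrix.scalar n), Matrix.charpoly_sub_scalar, map_neg,
      sub_eq_add_neg]
  have hX : (X - C c : A[X]).natDegree = 1 := natDegree_X_sub_C c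
  refine rootPoly_eq q r hr hr0 (Matrix.charpoly_monic _)
    ((Matrix.charpoly_natDegree_eq_dim _).trans hn) (h1.comp (monic_X_sub_C c) (by omega))
    (by rw [natDegree_comp_eq_of_mul_ne_zero (by simp [h1.leadingCoeff]), h2, hX, mul_one])
    fun m hm => ?_
  rw [hc, ← Polynomial.pow_comp, ← Polynomial.sub_comp]
  by_contra hne
  by_cases h0 : z.charpoly - rootPoly q r z.charpoly ^ r = 0
  · rw [h0, zero_comp, coeff_zero] at hne; exact hne rfl
  have hdeg := le_natDegree_of_ne_zero hne
  have hlt : (z.charpoly - rootPoly q r z.charpoly ^ r).natDegree + q < r * q := by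
    by_contra hge
    exact leadingCoeff_ne_zero.mpr h0 (h3 _ (by omega))
  have := natDegree_comp_le (p := z.charpoly - rootPoly q r z.charpoly ^ r) (q := X - C c)
  rw [hX, mul_one] at this
  omega

end Vale.Agent.P199.Spec
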