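import Vale.Agent.P199.Spec.Local

/-!
# Matrices near a semisimple point with prescribed block data

Let `O` be a local domain of residue characteristic zero in which monic polynomials split,
`Z` a matrix reducing to `diagonal (lam x.1)` with distinct `lam i`, and `g` monic of degree
`card ι` such that the first coefficients of `charpoly Z` agree with those of `g ^ card κ`.
If the diagonal blocks of `g(Z)` are scalar, then `g(Z) = 0` and `charpoly Z = g ^ card κ`.
-/

namespace Vale.Agent.P199.Spec

open Polynomial Matrix IsLocalRing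

theorem eq_of_pow_coeff_eq {k : Type*} [Field k] [CharZero k] {f g : k[X]} {q r : ℕ} (hr : r ≠ 0)
    (hf : f.Monic) (hg : g.Monic) (hfq : f.natDegree = q) (hgq : g.natDegree = q)
    (h : ∀ m, r * q ≤ m + q → (f ^ r - g ^ r).coeff m = 0) : f = g := by
  by_contra hne
  have hfg : f - g ≠ 0 := sub_ne_zero.mpr hne
  set S := ∑ i ∈ Finset.range r, f ^ i * g ^ (r - 1 - i) with hS
  have hfac : f ^ r - g ^ r = (f - g) * S := by
    rw [hS, mul_comm, geom_sum₂_mul]
  have hterm : ∀ i ∈ Finset.range r,
      (f ^ i * g ^ (r - 1 - i)).coeff ((r - 1) * q) = 1 ∧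
      (f ^ i * g ^ (r - 1 - i)).natDegree = (r - 1) * q := by
    intro i hi
    rw [Finset.mem_range] at hi
    have hm : (f ^ i * g ^ (r - 1 - i)).Monic := (hf.pow i).mul (hg.pow _)
    have hd : (f ^ i * g ^ (r - 1 - i)).natDegree = (r - 1) * q := by
      rw [(hf.pow i).natDegree_mul (hg.pow _), hf.natDegree_pow, hg.natDegree_pow, hfq, hgq,
        ← add_mul]
      congr 1; omega
    exact ⟨hd ▸ hm.coeff_natDegree, hd⟩
  have hSc : S.coeff ((r - 1) * q) = (r : k) := by
    rw [hS, finsetSum_coeff, Finset.sum_congr rfl fun i hi => (hterm i hi).1]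
    simp
  have hSd : S.natDegree = (r - 1) * q := by
    refine le_antisymm (natDegree_sum_le_of_forall_le _ _ fun i hi => ((hterm i hi).2).le) ?_
    exact le_natDegree_of_ne_zero (by rw [hSc]; exact_mod_cast hr)
  have h1 := h ((f - g).natDegree + S.natDegree) (by
    rw [hSd]
    obtain ⟨r', rfl⟩ := Nat.exists_eq_succ_of_ne_zero hr
    rw [Nat.succ_sub_one, Nat.succ_mul]; omega)
  have hS0 : S ≠ 0 := fun h0 => by
    rw [h0, coeff_zero] at hSc; exact hr (by exact_mod_cast hSc.symm)
  rw [hfac, coeff_mul_degree_add_degree] at h1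
  exact (mul_ne_zero (leadingCoeff_ne_zero.mpr hfg) (leadingCoeff_ne_zero.mpr hS0)) h1

theorem aeval_map_matrix {A B : Type*} [CommRing A] [CommRing B] (π : A →+* B) {n : Type*}
    [Fintype n] [DecidableEq n] (Z : Matrix n n A) (g : A[X]) :
    aeval (Z.map π) (g.map π) = (aeval Z g).map π := by
  show aeval (π.mapMatrix Z) (g.map π) = π.mapMatrix (aeval Z g)
  induction g using Polynomial.induction_on with
  | C a =>
    ext i j
    simp [Matrix.algebraMap_matrix_apply, apply_ite π]
  | add P Q hP hQ => rw [Polynomial.map_add, map_add, map_add, map_add, hP, hQ]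
  | monomial k a ih =>
    rw [pow_succ, ← mul_assoc, Polynomial.map_mul, map_mul, map_mul, map_mul, ih]
    simp

variable {O : Type*} [CommRing O] [IsDomain O] [IsLocalRing O] [CharZero (ResidueField O)]
  {ι κ : Type*} [Fintype ι] [DecidableEq ι] [Fintype κ] [DecidableEq κ] [Nonempty κ]

omit [IsDomain O] in
theorem kills_of_block (Z : Matrix (ι × κ) (ι × κ) O) (μ : ι → O)
    (hμ : ∀ i j, i ≠ j → IsUnit (μ i - μ j))
    (hred : ∀ x y, Z x y - (if x = y then μ x.1 else 0) ∈ maximalIdeal O)
    (hpow : ∀ m, Fintype.card (ι × κ) ≤ m + Fintype.card ι →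
      (Z.charpoly - (∏ i, (X - C (μ i))) ^ Fintype.card κ).coeff m = 0)
    (hblock : ∀ i a b, a ≠ b → (aeval Z (∏ i, (X - C (μ i)))) (i, a) (i, b) = 0)
    (hscal : ∀ i a b, (aeval Z (∏ i, (X - C (μ i)))) (i, a) (i, a)
      = (aeval Z (∏ i, (X - C (μ i)))) (i, b) (i, b)) :
    aeval Z (∏ i, (X - C (μ i))) = 0 := by
  set g : O[X] := ∏ i, (X - C (μ i)) with hg
  let J : Ideal O := Ideal.span (Set.range fun p : (ι × κ) × (ι × κ) => (aeval Z g) p.1 p.2)
  have hJfg : J.FG := Submodule.fg_span (Set.finite_range _)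
  have hmem : ∀ x y, (aeval Z g) x y ∈ J := fun x y => Ideal.subset_span ⟨(x, y), rfl⟩
  have hJm : J ≤ maximalIdeal O := by
    rw [Ideal.span_le]
    rintro _ ⟨⟨x, y⟩, rfl⟩
    rw [SetLike.mem_coe, ← residue_eq_zero_iff]
    have hZm : (residue O).mapMatrix Z = Matrix.diagonal (fun x : ι × κ => residue O (μ x.1)) := by
      ext a b
      have := hred a b
      rw [← residue_eq_zero_iff, map_sub, sub_eq_zero] at this
      rw [RingHom.mapMatrix_apply, Matrix.map_apply, this, Matrix.diagonal_apply]
      split_ifs <;> simp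
    have hP : ∀ Q : O[X], (residue O).mapMatrix (aeval Z Q)
        = Matrix.diagonal (fun x : ι × κ => residue O (Q.eval (μ x.1))) := by
      intro Q
      induction Q using Polynomial.induction_on with
      | C a =>
        ext a b
        simp [Matrix.algebraMap_matrix_apply, Matrix.diagonal_apply, apply_ite (residue O)]
      | add Q R hQ hR =>
        rw [map_add, map_add, hQ, hR, Matrix.diagonal_add]; simp
      | monomial k a ih =>
        rw [pow_succ, ← mul_assoc, map_mul, map_mul, ih, aeval_X, hZm, Matrix.diagonal_mul_diagonal]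
        simp
    have h := congrFun (congrFun (hP g) x) y
    rw [RingHom.mapMatrix_apply, Matrix.map_apply] at h
    rw [h, Matrix.diagonal_apply]
    split_ifs
    · rw [hg, eval_prod, Finset.prod_eq_zero (Finset.mem_univ x.1) (by simp), map_zero]
    · rfl
  let K : Ideal O := maximalIdeal O * J
  have hK : K ≠ ⊤ := fun h => (maximalIdeal.isMaximal O).ne_top (top_le_iff.mp (h ▸ Ideal.mul_le_left))
  let π := Ideal.Quotient.mk K
  have : Nontrivial (O ⧸ K) := Ideal.Quotient.nontrivial_iff.mpr hK
  have : IsLocalRing (O ⧸ K) := IsLocalRing.of_surjective' π Ideal.Quotient.mk_surjective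
  have : IsLocalHom π := IsLocalHom.of_surjective π Ideal.Quotient.mk_surjective
  have hπm : ∀ {x : O}, x ∈ maximalIdeal O → π x ∈ maximalIdeal (O ⧸ K) := fun {x} hx =>
    ((IsLocalRing.local_hom_TFAE π).out 0 1 rfl rfl).mp this ⟨x, hx, rfl⟩
  let φ : ResidueField O →+* ResidueField (O ⧸ K) := ResidueField.map π
  have : CharZero (ResidueField (O ⧸ K)) := charZero_of_injective_ringHom φ.injective
  have hmapg : g.map π = ∏ i, (X - C (π (μ i))) := by simp [hg, Polynomial.map_prod]
  have haev : ∀ x y, aeval (Z.map π) (∏ i, (X - C (π (μ i)))) x y = π ((aeval Z g) x y) := by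
    intro x y
    rw [← hmapg, aeval_map_matrix π Z g]
    rfl
  have hres := rigidity (Z.map π) (fun i => π (μ i)) (J.map π)
    (Ideal.map_le_iff_le_comap.mpr fun x hx => hπm (hJm hx))
    (fun x hx y hy => by
      obtain ⟨a, ha, rfl⟩ := (Ideal.mem_map_iff_of_surjective _ Ideal.Quotient.mk_surjective).mp hx
      obtain ⟨b, rfl⟩ := Ideal.Quotient.mk_surjective y
      rw [← map_mul, Ideal.Quotient.eq_zero_iff_mem]
      refine Ideal.mul_mem_mul ?_ ha
      by_contra hb
      exact hy (((notMem_maximalIdeal (x := b)).mp hb).map π))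
    (fun i j hij => by rw [← map_sub]; exact (hμ i j hij).map π)
    (fun x y => by
      have := hπm (hred x y)
      rw [map_sub] at this
      simpa [apply_ite π] using this)
    (fun m hm => by
      rw [Matrix.charpoly_map, ← hmapg, ← Polynomial.map_pow, ← Polynomial.map_sub, coeff_map,
        hpow m hm, map_zero])
    (fun x y => by rw [haev]; exact Ideal.mem_map_of_mem _ (hmem x y))
    (fun i a b hab => by rw [haev, hblock i a b hab, map_zero])
    (fun i a b => by rw [haev, haev, hscal i a b])
  have hle : J ≤ maximalIdeal O • J := by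
    rw [Ideal.span_le]
    rintro _ ⟨⟨x, y⟩, rfl⟩
    have h := haev x y
    rw [hres, Matrix.zero_apply] at h
    exact Ideal.Quotient.eq_zero_iff_mem.mp h.symm
  have hbot := Submodule.eq_bot_of_le_smul_of_le_jacobson_bot _ J hJfg hle
    (IsLocalRing.maximalIdeal_le_jacobson ⊥)
  ext x y
  exact (Submodule.eq_bot_iff _).mp hbot _ (hmem x y)

omit [IsDomain O] [CharZero (ResidueField O)] [Nonempty κ] in
theorem charpoly_of_kills (Z : Matrix (ι × κ) (ι × κ) O) (μ : ι → O)
    (hμ : ∀ i j, i ≠ j → IsUnit (μ i - μ j))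
    (hred : ∀ x y, Z x y - (if x = y then μ x.1 else 0) ∈ maximalIdeal O)
    (hg0 : aeval Z (∏ i, (X - C (μ i))) = 0) :
    Z.charpoly = (∏ i, (X - C (μ i))) ^ Fintype.card κ := by
  classical
  have hden : ∀ j, IsUnit (∏ i ∈ Finset.univ.erase j, (μ j - μ i)) := fun j =>
    IsUnit.prod_iff.mpr fun i hi => hμ j i (Finset.mem_erase.mp hi).1.symm
  let ℓ : ι → O[X] := fun j =>
    C (((hden j).unit⁻¹ : Oˣ) : O) * ∏ i ∈ Finset.univ.erase j, (X - C (μ i))
  have hℓ : ∀ i j, (ℓ j).eval (μ i) = if i = j then 1 else 0 := by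
    intro i j
    simp only [ℓ, eval_mul, eval_C, eval_prod, eval_sub, eval_X]
    split_ifs with h
    · subst h; exact (hden i).val_inv_mul
    · exact mul_eq_zero_of_right _ (Finset.prod_eq_zero
        (Finset.mem_erase.mpr ⟨h, Finset.mem_univ i⟩) (sub_self _))
  let D : ι → Matrix (ι × κ) (ι × κ) O :=
    fun j => Matrix.diagonal fun x => if x.1 = j then 1 else 0
  let S : Matrix (ι × κ) (ι × κ) O := ∑ j, aeval Z (ℓ j) * D j
  let Δ : Matrix (ι × κ) (ι × κ) O := Matrix.diagonal fun x => μ x.1
  have hZℓ : ∀ j, Z * aeval Z (ℓ j) = μ j • aeval Z (ℓ j) := by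
    intro j
    have hdvd : (∏ i, (X - C (μ i))) ∣ (X * ℓ j - C (μ j) * ℓ j) :=
      dvd_of_eval_eq_zero μ hμ fun i => by
        simp only [eval_sub, eval_mul, eval_X, eval_C, hℓ]
        split_ifs with h <;> simp [h]
    obtain ⟨k, hk⟩ := hdvd
    have := congrArg (aeval Z) hk
    rw [map_sub, map_mul (aeval Z) X (ℓ j), map_mul (aeval Z) (C (μ j)) (ℓ j),
      map_mul (aeval Z) _ k, aeval_X, aeval_C, hg0, zero_mul, sub_eq_zero,
      ← Algebra.smul_def] at this
    exact this
  have hDΔ : ∀ j, D j * Δ = μ j • D j := by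
    intro j
    rw [Matrix.diagonal_mul_diagonal, ← Matrix.diagonal_smul]
    congr 1; ext x
    by_cases h : x.1 = j <;> simp [h]
  have hconj : Z * S = S * Δ := by
    simp only [S, Finset.mul_sum, Finset.sum_mul]
    refine Finset.sum_congr rfl fun j _ => ?_
    rw [← mul_assoc, hZℓ, mul_assoc, hDΔ, smul_mul_assoc, mul_smul_comm]
  have hS : IsUnit S := by
    rw [Matrix.isUnit_iff_isUnit_det]
    by_contra hne
    have h0 : residue O S.det = 0 := by
      rw [residue_eq_zero_iff, mem_maximalIdeal]; exact hne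
    have hZm : (residue O).mapMatrix Z = Matrix.diagonal (fun x : ι × κ => residue O (μ x.1)) := by
      ext a b
      have := hred a b
      rw [← residue_eq_zero_iff, map_sub, sub_eq_zero] at this
      rw [RingHom.mapMatrix_apply, Matrix.map_apply, this, Matrix.diagonal_apply]
      split_ifs <;> simp
    have hP : ∀ Q : O[X], (residue O).mapMatrix (aeval Z Q)
        = Matrix.diagonal (fun x : ι × κ => residue O (Q.eval (μ x.1))) := by
      intro Q
      induction Q using Polynomial.induction_on with
      | C a =>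
        ext a b
        simp [Matrix.algebraMap_matrix_apply, Matrix.diagonal_apply, apply_ite (residue O)]
      | add Q R hQ hR =>
        rw [map_add, map_add, hQ, hR, Matrix.diagonal_add]; simp
      | monomial k a ih =>
        rw [pow_succ, ← mul_assoc, map_mul, map_mul, ih, aeval_X, hZm, Matrix.diagonal_mul_diagonal]
        simp
    have hS1 : (residue O).mapMatrix S = 1 := by
      simp only [S, map_sum, map_mul, hP]
      ext x y
      rw [Matrix.sum_apply, Matrix.one_apply]
      simp only [D, RingHom.mapMatrix_apply, Matrix.diagonal_map (map_zero (residue O)),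
        Matrix.diagonal_mul_diagonal, Matrix.diagonal_apply, hℓ, apply_ite (residue O), map_one,
        map_zero]
      by_cases h : x = y
      · subst h; simp
      · simp [h]
    rw [RingHom.map_det, hS1, det_one] at h0
    exact one_ne_zero h0
  obtain ⟨u, hu⟩ := hS
  have : Z = (u : Matrix (ι × κ) (ι × κ) O) * Δ * ((u⁻¹ : (Matrix (ι × κ) (ι × κ) O)ˣ) : Matrix (ι × κ) (ι × κ) O) := by
    rw [hu, ← hconj, ← hu, Units.mul_inv_cancel_right]
  rw [this, Matrix.coe_units_inv, Matrix.charpoly_units_conj, Matrix.charpoly_diagonal, Fintype.prod_prod_type]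
  simp [Finset.prod_pow]

/-- Block-scalar data near a semisimple point force exactly `card ι` eigenvalues of
multiplicity `card κ`. -/
theorem semisimple_of_block (hsplit : ∀ P : O[X], P.Monic → P.Splits)
    (Z : Matrix (ι × κ) (ι × κ) O) (lam : ι → O) (hlam : ∀ i j, i ≠ j → IsUnit (lam i - lam j))
    (hred : ∀ x y, Z x y - (if x = y then lam x.1 else 0) ∈ maximalIdeal O)
    (g : O[X]) (hg : g.Monic) (hgq : g.natDegree = Fintype.card ι)
    (hpow : ∀ m, Fintype.card (ι × κ) ≤ m + Fintype.card ι →
      (Z.charpoly - g ^ Fintype.card κ).coeff m = 0)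
    (hblock : ∀ i a b, a ≠ b → (aeval Z g) (i, a) (i, b) = 0)
    (hscal : ∀ i a b, (aeval Z g) (i, a) (i, a) = (aeval Z g) (i, b) (i, b)) :
    aeval Z g = 0 ∧ Z.charpoly = g ^ Fintype.card κ := by
  classical
  have hZm : (residue O).mapMatrix Z = Matrix.diagonal (fun x : ι × κ => residue O (lam x.1)) := by
    ext a b
    have := hred a b
    rw [← residue_eq_zero_iff, map_sub, sub_eq_zero] at this
    rw [RingHom.mapMatrix_apply, Matrix.map_apply, this, Matrix.diagonal_apply]
    split_ifs <;> simp
  let L : (ResidueField O)[X] := ∏ i, (X - C (residue O (lam i)))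
  have hLm : L.Monic := monic_prod_of_monic _ _ fun i _ => monic_X_sub_C _
  have hLq : L.natDegree = Fintype.card ι := by
    rw [natDegree_prod_of_monic _ _ fun i _ => monic_X_sub_C _]; simp
  have hgm : g.map (residue O) = L := by
    refine eq_of_pow_coeff_eq (r := Fintype.card κ) Fintype.card_ne_zero (hg.map _) hLm
      ((hg.natDegree_map _).trans hgq) hLq fun m hm => ?_
    have hchar : Z.charpoly.map (residue O) = L ^ Fintype.card κ := by
      rw [← Matrix.charpoly_map, ← RingHom.mapMatrix_apply, hZm, Matrix.charpoly_diagonal,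
        Fintype.prod_prod_type]
      simp [L, Finset.prod_pow]
    have h := congrArg (residue O) (hpow m (by rw [Fintype.card_prod, mul_comm]; exact hm))
    rw [← coeff_map, map_zero, Polynomial.map_sub, Polynomial.map_pow, hchar, coeff_sub,
      sub_eq_zero] at h
    rw [coeff_sub, sub_eq_zero]
    exact h.symm
  have hroot : ∀ i, ∃ μ : O, g.eval μ = 0 ∧ residue O μ = residue O (lam i) := by
    intro i
    have h1 := (hsplit g hg).eq_prod_roots_of_monic hg
    have h2 : (g.map (residue O)).eval (residue O (lam i)) = 0 := by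
      rw [hgm, eval_prod, Finset.prod_eq_zero (Finset.mem_univ i) (by simp)]
    rw [h1, Polynomial.map_multiset_prod, eval_multiset_prod, Multiset.prod_eq_zero_iff] at h2
    simp only [Multiset.mem_map] at h2
    obtain ⟨_, ⟨_, ⟨μ, hμ, rfl⟩, rfl⟩, h3⟩ := h2
    simp only [Polynomial.map_sub, map_X, map_C, eval_sub, eval_X, eval_C, sub_eq_zero] at h3
    exact ⟨μ, ((mem_roots hg.ne_zero).mp hμ), h3.symm⟩
  choose μ hμ0 hμr using hroot
  have hclose : ∀ i, μ i - lam i ∈ maximalIdeal O := fun i => by
    rw [← residue_eq_zero_iff, map_sub, hμr, sub_self]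
  have hμu : ∀ i j, i ≠ j → IsUnit (μ i - μ j) := by
    intro i j hij
    rw [← notMem_maximalIdeal, ← residue_eq_zero_iff, map_sub, hμr, hμr, ← map_sub,
      residue_eq_zero_iff, notMem_maximalIdeal]
    exact hlam i j hij
  have hred' : ∀ x y, Z x y - (if x = y then μ x.1 else 0) ∈ maximalIdeal O := by
    intro x y
    have h := hred x y
    by_cases hxy : x = y
    · rw [if_pos hxy] at h ⊢
      have := (maximalIdeal O).sub_mem h (hclose x.1)
      rwa [sub_sub_sub_cancel_right] at this
    · rw [if_neg hxy] at h ⊢; exact h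
  have hgμ : g = ∏ i, (X - C (μ i)) := by
    have hd := dvd_of_eval_eq_zero μ hμu hμ0
    refine eq_of_monic_of_dvd_of_natDegree_le
      (monic_prod_of_monic _ _ fun i _ => monic_X_sub_C _) hg hd ?_
    rw [natDegree_prod_of_monic _ _ fun i _ => monic_X_sub_C _, hgq]; simp
  subst hgμ
  exact ⟨kills_of_block Z μ hμu hred' hpow hblock hscal,
    charpoly_of_kills Z μ hμu hred' (kills_of_block Z μ hμu hred' hpow hblock hscal)⟩

end Vale.Agent.P199.Spec
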