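import Vale.Agent.P199.Spec.Power

/-!
# First order rigidity of matrices with `q` eigenvalues of equal multiplicity

Over a local ring of residue characteristic zero let `Z` reduce to a diagonal matrix with
distinct eigenvalues `μ i`, each repeated `card κ` times, let `g = ∏ (X - μ i)` and suppose that
the first coefficients of the characteristic polynomial agree with those of `g ^ card κ`.
If the entries of `g(Z)` are annihilated by the maximal ideal and its diagonal blocks are
scalar, then `g(Z) = 0`.
-/

namespace Vale.Agent.P199.Spec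

open Polynomial Matrix IsLocalRing

variable {A : Type*} [CommRing A]

theorem dvd_of_eval_eq_zero {ι : Type*} [Fintype ι] (μ : ι → A)
    (hμ : ∀ i j, i ≠ j → IsUnit (μ i - μ j)) {P : A[X]} (h : ∀ i, P.eval (μ i) = 0) :
    (∏ i, (X - C (μ i))) ∣ P :=
  Finset.prod_dvd_of_coprime
    (fun i _ j _ hij => Polynomial.isCoprime_X_sub_C_of_isUnit_sub (hμ i j hij))
    (fun i _ => dvd_iff_isRoot.mpr (h i))

theorem trace_of_idempotent {n : Type*} [Fintype n] [DecidableEq n] [IsLocalRing A]
    {M D : Matrix n n A} (hM : M * M = M) (hD : D * D = D)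
    (hres : M.map (residue A) = D.map (residue A)) : M.trace = D.trace := by
  let S : Matrix n n A := M * D + (1 - M) * (1 - D)
  have h1 : M * S = S * D := by
    simp only [S, mul_add, add_mul, mul_sub, sub_mul, one_mul, mul_one, ← mul_assoc, hM]
    simp only [mul_assoc, hD]
    noncomm_ring
  have hS : IsUnit S.det := by
    have hD' : D.map (residue A) * D.map (residue A) = D.map (residue A) := by
      rw [← Matrix.map_mul, hD]
    have hSmap : (residue A).mapMatrix S = 1 := by
      simp only [S, map_add, map_mul, map_sub, map_one]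
      rw [RingHom.mapMatrix_apply, RingHom.mapMatrix_apply, hres, sub_mul, mul_sub, mul_sub,
        hD', one_mul, mul_one, sub_self, sub_zero, one_mul]
      abel
    by_contra hne
    have : residue A S.det = 0 := by
      rw [residue_eq_zero_iff, mem_maximalIdeal]; exact hne
    rw [RingHom.map_det, hSmap, det_one] at this
    exact one_ne_zero this
  calc M.trace = (M * (S * S⁻¹)).trace := by rw [Matrix.mul_nonsing_inv S hS, mul_one]
    _ = (S * D * S⁻¹).trace := by rw [← mul_assoc, h1]
    _ = D.trace := by
      rw [Matrix.trace_mul_comm, ← mul_assoc, Matrix.nonsing_inv_mul S hS, one_mul]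

variable [IsLocalRing A] [CharZero (ResidueField A)]

theorem isUnit_natCast_succ (k : ℕ) : IsUnit (((k + 1 : ℕ) : A)) := by
  rw [← notMem_maximalIdeal, ← residue_eq_zero_iff, map_natCast]
  exact_mod_cast Nat.succ_ne_zero k

theorem exists_antiderivative (Q : A[X]) :
    ∃ P : A[X], derivative P = Q ∧ P.natDegree ≤ Q.natDegree + 1 := by
  refine ⟨∑ k ∈ Finset.range (Q.natDegree + 1),
    C (Q.coeff k * ↑(isUnit_natCast_succ (A := A) k).unit⁻¹) * X ^ (k + 1), ?_, ?_⟩
  · conv_rhs => rw [Q.as_sum_range_C_mul_X_pow]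
    rw [derivative_sum]
    refine Finset.sum_congr rfl fun k _ => ?_
    rw [derivative_C_mul_X_pow, Nat.add_sub_cancel, mul_assoc, IsUnit.val_inv_mul, mul_one]
  · refine natDegree_sum_le_of_forall_le _ _ fun k hk => ?_
    exact (natDegree_C_mul_X_pow_le _ _).trans (Finset.mem_range.mp hk)

variable {ι κ : Type*} [Fintype ι] [DecidableEq ι] [Fintype κ] [DecidableEq κ] [Nonempty κ]

theorem rigidity (Z : Matrix (ι × κ) (ι × κ) A) (μ : ι → A) (I : Ideal A)
    (hI : I ≤ maximalIdeal A) (hann : ∀ x ∈ I, ∀ y ∈ maximalIdeal A, y * x = 0)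
    (hμ : ∀ i j, i ≠ j → IsUnit (μ i - μ j))
    (hred : ∀ x y, Z x y - (if x = y then μ x.1 else 0) ∈ maximalIdeal A)
    (hpow : ∀ m, Fintype.card (ι × κ) ≤ m + Fintype.card ι →
      (Z.charpoly - (∏ i, (X - C (μ i))) ^ Fintype.card κ).coeff m = 0)
    (hY : ∀ x y, (aeval Z (∏ i, (X - C (μ i)))) x y ∈ I)
    (hblock : ∀ i a b, a ≠ b → (aeval Z (∏ i, (X - C (μ i)))) (i, a) (i, b) = 0)
    (hscal : ∀ i a b, (aeval Z (∏ i, (X - C (μ i)))) (i, a) (i, a)
      = (aeval Z (∏ i, (X - C (μ i)))) (i, b) (i, b)) :
    aeval Z (∏ i, (X - C (μ i))) = 0 := by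
  classical
  set g : A[X] := ∏ i, (X - C (μ i)) with hg
  set Y := aeval Z g with hYdef
  obtain ⟨a₀⟩ := ‹Nonempty κ›
  let c : ι → A := fun i => Y (i, a₀) (i, a₀)
  have hZY : Z * Y = Y * Z := by
    have := congrArg (aeval Z) (mul_comm X g)
    rwa [map_mul, map_mul, aeval_X] at this
  have hoff : ∀ x y, x ≠ y → Y x y = 0 := by
    intro x y hxy
    by_cases h1 : x.1 = y.1
    · obtain ⟨i, a⟩ := x; obtain ⟨j, b⟩ := y
      obtain rfl : i = j := h1
      exact hblock i a b (fun h => hxy (by rw [h]))
    · have e := congrFun (congrFun hZY x) y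
      rw [Matrix.mul_apply, Matrix.mul_apply] at e
      have l : ∀ z, Z x z * Y z y = (if x = z then μ x.1 else 0) * Y z y := fun z => by
        have := hann _ (hY z y) _ (hred x z)
        rw [sub_mul, sub_eq_zero] at this; exact this
      have r : ∀ z, Y x z * Z z y = Y x z * (if z = y then μ z.1 else 0) := fun z => by
        have := hann _ (hY x z) _ (hred z y)
        rw [sub_mul, sub_eq_zero, mul_comm, mul_comm _ (Y x z)] at this; exact this
      simp only [l, r, ite_mul, zero_mul, mul_ite, mul_zero, Finset.sum_ite_eq,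
        Finset.sum_ite_eq', Finset.mem_univ, if_true] at e
      have e' : (μ x.1 - μ y.1) * Y x y = 0 := by linear_combination e
      exact (hμ _ _ h1).mul_right_eq_zero.mp e'
  have hYd : Y = Matrix.diagonal (fun x => c x.1) := by
    ext ⟨i, a⟩ ⟨j, b⟩
    by_cases h : (i, a) = (j, b)
    · rw [h, Matrix.diagonal_apply_eq]
      exact hscal j b a₀
    · rw [Matrix.diagonal_apply_ne _ h, hoff _ _ h]
  have hcI : ∀ i, c i ∈ I := fun i => hY _ _
  have hmul : ∀ (P : A[X]) (d : ι → A), (∀ i, d i ∈ I) →
      aeval Z P * Matrix.diagonal (fun x : ι × κ => d x.1)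
        = Matrix.diagonal (fun x => P.eval (μ x.1) * d x.1) := by
    intro P
    induction P using Polynomial.induction_on with
    | C a =>
      intro d _
      rw [aeval_C, Algebra.algebraMap_eq_smul_one, smul_mul_assoc, one_mul, ← Matrix.diagonal_smul]
      simp [Pi.smul_def]
    | add P Q hP hQ =>
      intro d hd
      rw [map_add, add_mul, hP d hd, hQ d hd, Matrix.diagonal_add]
      simp [add_mul]
    | monomial k a ih =>
      intro d hd
      rw [pow_succ, ← mul_assoc, map_mul, aeval_X, mul_assoc]
      have e : Z * Matrix.diagonal (fun x : ι × κ => d x.1)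
          = Matrix.diagonal (fun x : ι × κ => μ x.1 * d x.1) := by
        ext x y
        rw [Matrix.mul_diagonal]
        have := hann _ (hd y.1) _ (hred x y)
        rw [sub_mul, sub_eq_zero] at this
        rw [this]
        by_cases h : x = y
        · subst h; simp
        · simp [h]
      rw [e, ih (fun i => μ i * d i) (fun i => I.mul_mem_left _ (hd i))]
      congr 1; ext x
      simp only [eval_mul, eval_C, eval_pow, eval_X]
      ring
  have hPY : ∀ P : A[X], aeval Z (P * g) = Matrix.diagonal (fun x => P.eval (μ x.1) * c x.1) :=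
    fun P => by rw [map_mul, ← hYdef, hYd]; exact hmul P c hcI
  have hgg : ∀ P : A[X], aeval Z (g * g * P) = 0 := by
    intro P
    rw [show g * g * P = (g * P) * g by ring, hPY]
    have : ∀ i, (g * P).eval (μ i) = 0 := fun i => by
      rw [eval_mul, hg, eval_prod, Finset.prod_eq_zero (Finset.mem_univ i) (by simp), zero_mul]
    simp [this]
  -- Lagrange polynomials
  have hden : ∀ j, IsUnit (∏ i ∈ Finset.univ.erase j, (μ j - μ i)) := fun j =>
    IsUnit.prod_iff.mpr fun i hi => hμ j i (Finset.mem_erase.mp hi).1.symm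
  let ℓ : ι → A[X] := fun j => C (((hden j).unit⁻¹ : Aˣ) : A) * ∏ i ∈ Finset.univ.erase j, (X - C (μ i))
  have hℓ : ∀ i j, (ℓ j).eval (μ i) = if i = j then 1 else 0 := by
    intro i j
    simp only [ℓ, eval_mul, eval_C, eval_prod, eval_sub, eval_X]
    split_ifs with h
    · subst h
      simpa [eval_prod] using (hden i).val_inv_mul
    · refine mul_eq_zero_of_right _ (Finset.prod_eq_zero (Finset.mem_erase.mpr ⟨h, Finset.mem_univ i⟩) ?_)
      exact sub_self _
  have hℓdeg : ∀ j, (ℓ j).natDegree + 1 ≤ Fintype.card ι := by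
    intro j
    have h1 : (ℓ j).natDegree ≤ (Finset.univ.erase j).card := by
      refine (natDegree_C_mul_le _ _).trans ((natDegree_prod_le _ _).trans ?_)
      exact (Finset.sum_le_card_nsmul _ _ 1 fun i _ => natDegree_X_sub_C_le _).trans (by simp)
    have h2 := Finset.card_erase_add_one (Finset.mem_univ j)
    rw [Finset.card_univ] at h2
    omega
  have hinterp : ∀ (P : A[X]), g ∣ P - ∑ j, C (P.eval (μ j)) * ℓ j := fun P =>
    dvd_of_eval_eq_zero μ hμ fun i => by simp [eval_finsetSum, hℓ]
  -- the corrected matrix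
  have hg' : ∀ i, IsUnit ((derivative g).eval (μ i)) := by
    intro i
    rw [hg, derivative_prod_finset, eval_finsetSum, Finset.sum_eq_single i]
    · simpa [eval_prod] using hden i
    · intro j _ hji
      rw [eval_mul, eval_prod, Finset.prod_eq_zero (Finset.mem_erase.mpr ⟨hji.symm, Finset.mem_univ i⟩)
        (by simp), zero_mul]
    · simp
  let s : A[X] := ∑ j, C (((hg' j).unit⁻¹ : Aˣ) : A) * ℓ j
  have hs : ∀ i, (derivative g).eval (μ i) * s.eval (μ i) = 1 := by
    intro i
    simp only [s, eval_finsetSum, eval_mul, eval_C, hℓ, mul_ite, mul_one, mul_zero,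
      Finset.sum_ite_eq, Finset.mem_univ, if_true]
    exact (hg' i).mul_val_inv
  let w : A[X] := X - s * g
  have hexp : ∀ P : A[X], aeval (aeval Z w) P
      = aeval Z P - Matrix.diagonal (fun x => (derivative P).eval (μ x.1) * s.eval (μ x.1) * c x.1) := by
    intro P
    obtain ⟨k, hk⟩ := (P.map (C : A →+* A[X])).binomExpansion X (-(s * g))
    rw [eval_map, eval_map, derivative_map, eval_map] at hk
    have hid : ∀ Q R : A[X], Q.eval₂ C R = Q.comp R := fun Q R => rfl
    rw [hid, hid, hid, comp_X, comp_X, ← sub_eq_add_neg] at hk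
    rw [← aeval_comp, hk, map_add, map_add, show k * (-(s * g)) ^ 2 = g * g * (k * s ^ 2) by ring,
      hgg, add_zero, show derivative P * -(s * g) = -((derivative P * s) * g) by ring, map_neg, hPY,
      ← sub_eq_add_neg]
    simp [mul_assoc]
  set Z' := aeval Z w with hZ'
  have hgZ' : aeval Z' g = 0 := by
    rw [hexp, ← hYdef, hYd, sub_eq_zero]
    congr 1; ext x
    rw [hs, one_mul]
  have hmod : ∀ P : A[X], aeval Z' P = ∑ j, P.eval (μ j) • aeval Z' (ℓ j) := by
    intro P
    obtain ⟨k, hk⟩ := hinterp P
    rw [sub_eq_iff_eq_add] at hk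
    conv_lhs => rw [hk]
    simp [hgZ', Algebra.smul_def]
  have hresM : ∀ P : A[X], (aeval Z' P).map (residue A)
      = Matrix.diagonal (fun x : ι × κ => residue A (P.eval (μ x.1))) := by
    intro P
    have hZm : (residue A).mapMatrix Z = Matrix.diagonal (fun x : ι × κ => residue A (μ x.1)) := by
      ext x y
      have := hred x y
      rw [← residue_eq_zero_iff, map_sub, sub_eq_zero] at this
      rw [RingHom.mapMatrix_apply, Matrix.map_apply, this, Matrix.diagonal_apply]
      split_ifs <;> simp
    have hP : ∀ Q : A[X], (residue A).mapMatrix (aeval Z Q)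
        = Matrix.diagonal (fun x : ι × κ => residue A (Q.eval (μ x.1))) := by
      intro Q
      induction Q using Polynomial.induction_on with
      | C a =>
        ext x y
        simp [Matrix.algebraMap_matrix_apply, Matrix.diagonal_apply, apply_ite (residue A)]
      | add Q R hQ hR =>
        rw [map_add, map_add, hQ, hR, Matrix.diagonal_add]; simp
      | monomial k a ih =>
        rw [pow_succ, ← mul_assoc, map_mul, map_mul, ih, aeval_X, hZm, Matrix.diagonal_mul_diagonal]
        simp
    show (residue A).mapMatrix (aeval Z' P) = _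
    rw [hexp, map_sub, hP]
    have : (residue A).mapMatrix (Matrix.diagonal fun x : ι × κ =>
        (derivative P).eval (μ x.1) * s.eval (μ x.1) * c x.1) = 0 := by
      rw [RingHom.mapMatrix_apply, Matrix.diagonal_map (map_zero _), ← Matrix.diagonal_zero]
      congr 1; ext x
      simp [(residue_eq_zero_iff _).mpr (hI (hcI x.1))]
    rw [this, sub_zero]
  have hEtr : ∀ j, (aeval Z' (ℓ j)).trace = (Fintype.card κ : A) := by
    intro j
    have hidem : aeval Z' (ℓ j) * aeval Z' (ℓ j) = aeval Z' (ℓ j) := by
      rw [← map_mul, hmod (ℓ j * ℓ j)]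
      simp [hℓ]
    rw [trace_of_idempotent hidem (D := Matrix.diagonal fun x => if x.1 = j then 1 else 0)
      (by rw [Matrix.diagonal_mul_diagonal]; simp) ?_]
    · rw [Matrix.trace_diagonal, Fintype.sum_prod_type,
        Finset.sum_eq_single j (fun i _ hij => by simp [hij]) (by simp)]
      simp
    · rw [hresM, Matrix.diagonal_map (map_zero _)]
      congr 1; ext x
      simp [hℓ, apply_ite (residue A)]
  have htr : ∀ P : A[X], P.natDegree ≤ Fintype.card ι →
      ∑ i, (derivative P).eval (μ i) * s.eval (μ i) * c i = 0 := by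
    intro P hP
    have e1 := congrArg Matrix.trace (hexp P)
    rw [hmod P, Matrix.trace_sum, Matrix.trace_sub, Matrix.trace_diagonal,
      Fintype.sum_prod_type] at e1
    simp only [Matrix.trace_smul, hEtr, smul_eq_mul, Finset.sum_const, Finset.card_univ,
      nsmul_eq_mul, ← Finset.mul_sum, ← Finset.sum_mul] at e1
    have hD : (Matrix.diagonal fun x : ι × κ => μ x.1).charpoly = g ^ Fintype.card κ := by
      rw [Matrix.charpoly_diagonal, Fintype.prod_prod_type]
      simp [hg, Finset.prod_pow]
    have e2 : (aeval Z P).trace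
        = ∑ x : ι × κ, P.eval (μ x.1) := by
      rw [aeval_eq_sum_range, Matrix.trace_sum]
      simp only [Matrix.trace_smul, smul_eq_mul]
      rw [Finset.sum_congr rfl fun k hk => by
        rw [trace_pow_eq Z (Matrix.diagonal fun x : ι × κ => μ x.1) (Fintype.card ι)
          (by rw [hD]; exact hpow) (k := k) (by rw [Finset.mem_range] at hk; omega),
          Matrix.diagonal_pow, Matrix.trace_diagonal, Finset.mul_sum]]
      rw [Finset.sum_comm]
      simp [eval_eq_sum_range]
    rw [e2, Fintype.sum_prod_type] at e1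
    simp only [Finset.sum_const, Finset.card_univ, nsmul_eq_mul, ← Finset.mul_sum] at e1
    have h3 : (Fintype.card κ : A) * ∑ i, (derivative P).eval (μ i) * s.eval (μ i) * c i = 0 := by
      linear_combination e1
    obtain ⟨k, hk⟩ := Nat.exists_eq_succ_of_ne_zero (Fintype.card_ne_zero (α := κ))
    rw [hk] at h3
    exact (isUnit_natCast_succ k).mul_right_eq_zero.mp h3
  have hc : ∀ j, c j = 0 := by
    intro j
    obtain ⟨P, hP, hPd⟩ := exists_antiderivative (ℓ j)
    have h := htr P (hPd.trans (hℓdeg j))
    simp only [hP, hℓ, ite_mul, one_mul, zero_mul, Finset.sum_ite_eq', Finset.mem_univ,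
      if_true] at h
    exact (IsUnit.of_mul_eq_one _ (by rw [mul_comm]; exact hs j)).mul_right_eq_zero.mp h
  rw [hYd]
  simp [hc]

end Vale.Agent.P199.Spec
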