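import Mathlib

/-!
# Traces of powers from the leading coefficients of the characteristic polynomial
-/

namespace Vale.Agent.P199.Spec

open Polynomial Matrix

variable {A : Type*} [CommRing A] {n : Type*} [Fintype n] [DecidableEq n]

theorem derivative_det_updateCol (M : Matrix n n A[X]) :
    derivative M.det = ∑ i, (M.updateCol i (fun k => derivative (M k i))).det := by
  simp only [det_apply]
  rw [derivative_sum, Finset.sum_comm]
  refine Finset.sum_congr rfl fun σ _ => ?_
  rw [Units.smul_def, map_zsmul, derivative_prod_finset, Finset.smul_sum]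
  refine Finset.sum_congr rfl fun i _ => ?_
  rw [← Units.smul_def, Units.smul_def]
  congr 1
  rw [← Finset.prod_erase_mul _ _ (Finset.mem_univ i), updateCol_self]
  congr 1
  refine Finset.prod_congr rfl fun k hk => ?_
  rw [updateCol_ne (Finset.mem_erase.mp hk).1]

theorem derivative_charpoly (Z : Matrix n n A) :
    derivative Z.charpoly = ((charmatrix Z).adjugate).trace := by
  rw [Matrix.charpoly, derivative_det_updateCol, Matrix.trace]
  refine Finset.sum_congr rfl fun i _ => ?_
  rw [Matrix.diag_apply, ← Matrix.transpose_apply (charmatrix Z).adjugate i i,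
    Matrix.adjugate_transpose, Matrix.adjugate_apply, Matrix.updateRow_transpose,
    Matrix.det_transpose]
  congr 1
  ext a b
  rcases eq_or_ne b i with rfl | hb
  · rw [updateCol_self, updateCol_self]
    rcases eq_or_ne a b with rfl | hab
    · simp [charmatrix_apply_eq]
    · simp [charmatrix_apply_ne _ _ _ hab, hab]
  · rw [updateCol_ne hb, updateCol_ne hb]

theorem adjugate_coeff_eq_zero (Z : Matrix n n A) (i j : n) {m : ℕ} (hm : Fintype.card n ≤ m) :
    ((charmatrix Z).adjugate i j).coeff m = 0 := by
  rcases subsingleton_or_nontrivial A with h | h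
  · exact Subsingleton.elim _ _
  have : Nonempty n := ⟨i⟩
  rw [← matPolyEquiv_coeff_apply]
  set P := matPolyEquiv (charmatrix Z).adjugate with hP
  have hmul : P * (X - C Z) = Z.charpoly.map (algebraMap A (Matrix n n A)) := by
    rw [hP, ← matPolyEquiv_charmatrix, ← map_mul, adjugate_mul, Matrix.charpoly,
      matPolyEquiv_smul_one]
  suffices hdeg : P.natDegree + 1 ≤ m by
    rw [Polynomial.coeff_eq_zero_of_natDegree_lt (by omega), Matrix.zero_apply]
  rcases eq_or_ne P 0 with h0 | h0
  · rw [h0, natDegree_zero, zero_add]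
    exact (Fintype.card_pos).trans_le hm
  · have h1 := Polynomial.natDegree_mul' (p := P) (q := X - C Z)
      (by rw [(monic_X_sub_C Z).leadingCoeff, mul_one]; exact leadingCoeff_ne_zero.mpr h0)
    rw [hmul, natDegree_X_sub_C] at h1
    have h2 := Polynomial.natDegree_map_le (f := algebraMap A (Matrix n n A)) (p := Z.charpoly)
    rw [Matrix.charpoly_natDegree_eq_dim] at h2
    omega

/-- The reversed generating polynomial of the traces of the powers. -/
noncomputable def powSums (Z : Matrix n n A) (q : ℕ) : A[X] :=
  ∑ k ∈ Finset.range (q + 1), C ((Z ^ k).trace) * X ^ (q - k)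

theorem powSums_identity (Z : Matrix n n A) (q : ℕ) {m : ℕ} (hm : Fintype.card n ≤ m) :
    (X ^ (q + 1) * derivative Z.charpoly).coeff m = (Z.charpoly * powSums Z q).coeff m := by
  let x : Matrix n n A[X] := Matrix.scalar n X
  let z : Matrix n n A[X] := (C : A →+* A[X]).mapMatrix Z
  have hxz : Commute x z := Matrix.scalar_commute X (fun r => Commute.all _ _) z
  have hcm : charmatrix Z = x - z := rfl
  have hgeo := hxz.mul_geom_sum₂ (q + 1)
  have key : (charmatrix Z).adjugate * x ^ (q + 1)
      = Z.charpoly • (∑ k ∈ Finset.range (q + 1), x ^ k * z ^ (q + 1 - 1 - k))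
        + (charmatrix Z).adjugate * z ^ (q + 1) := by
    rw [eq_add_of_sub_eq hgeo.symm, mul_add, ← mul_assoc, ← hcm, adjugate_mul, smul_mul_assoc,
      one_mul]
    rfl
  have hzk : ∀ k, z ^ k = (C : A →+* A[X]).mapMatrix (Z ^ k) := fun k => (map_pow _ Z k).symm
  have hxk : ∀ k, x ^ k = Matrix.scalar n (X ^ k) := fun k => (map_pow _ _ k).symm
  have h := congrArg Matrix.trace key
  rw [Matrix.trace_add, Matrix.trace_smul, Matrix.trace_sum, hxk] at h
  rw [← scalar_comm (X ^ (q + 1)) (fun r => Commute.all _ _), Matrix.scalar_apply,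
    ← smul_eq_diagonal_mul, Matrix.trace_smul, ← derivative_charpoly] at h
  have hS : ∑ k ∈ Finset.range (q + 1), (x ^ k * z ^ (q + 1 - 1 - k)).trace = powSums Z q := by
    rw [powSums, ← Finset.sum_range_reflect]
    refine Finset.sum_congr rfl fun k hk => ?_
    rw [Finset.mem_range] at hk
    rw [hxk, hzk, Matrix.scalar_apply, ← smul_eq_diagonal_mul, Matrix.trace_smul,
      show ∀ W : Matrix n n A, ((C : A →+* A[X]).mapMatrix W).trace = C W.trace from
        fun W => by simp [Matrix.trace, map_sum], smul_eq_mul]
    rw [mul_comm, show q + 1 - 1 - (q + 1 - 1 - k) = k by omega,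
      show q + 1 - 1 - k = q - k by omega]
  rw [hS, smul_eq_mul, smul_eq_mul] at h
  rw [h, coeff_add]
  suffices ((charmatrix Z).adjugate * z ^ (q + 1)).trace.coeff m = 0 by rw [this, add_zero]
  rw [Matrix.trace, finsetSum_coeff]
  refine Finset.sum_eq_zero fun i _ => ?_
  rw [Matrix.diag_apply, Matrix.mul_apply, finsetSum_coeff]
  refine Finset.sum_eq_zero fun j _ => ?_
  rw [hzk, RingHom.mapMatrix_apply, Matrix.map_apply, coeff_mul_C,
    adjugate_coeff_eq_zero Z i j hm, zero_mul]

/-- If two characteristic polynomials differ in degree `< card n - q`, the traces of the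
powers up to `q` agree. -/
theorem trace_pow_eq (B₁ B₂ : Matrix n n A) (q : ℕ)
    (h : ∀ m, Fintype.card n ≤ m + q → (B₁.charpoly - B₂.charpoly).coeff m = 0)
    {k : ℕ} (hk : k ≤ q) : (B₁ ^ k).trace = (B₂ ^ k).trace := by
  rcases subsingleton_or_nontrivial A with hA | hA
  · exact Subsingleton.elim _ _
  set d := B₁.charpoly - B₂.charpoly with hd
  set N := Fintype.card n with hN
  have hdlow : ∀ m, N ≤ m → (d * powSums B₂ q).coeff m = 0 ∧
      (X ^ (q + 1) * derivative d).coeff m = 0 := by
    intro m hm
    constructor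
    · rw [coeff_mul]
      refine Finset.sum_eq_zero fun x hx => ?_
      rw [Finset.HasAntidiagonal.mem_antidiagonal] at hx
      by_cases h1 : N ≤ x.1 + q
      · rw [h _ h1, zero_mul]
      · suffices (powSums B₂ q).coeff x.2 = 0 by rw [this, mul_zero]
        rw [powSums, finsetSum_coeff]
        refine Finset.sum_eq_zero fun i _ => ?_
        rw [coeff_C_mul_X_pow, if_neg (by omega)]
    · rw [coeff_X_pow_mul']
      split_ifs with h1
      · rw [coeff_derivative, h _ (by omega), zero_mul]
      · rfl
  have hzero : ∀ m, N ≤ m →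
      (B₁.charpoly * (powSums B₁ q - powSums B₂ q)).coeff m = 0 := by
    intro m hm
    obtain ⟨e1, e2⟩ := hdlow m hm
    have i1 := powSums_identity B₁ q hm
    have i2 := powSums_identity B₂ q hm
    rw [hd, sub_mul, coeff_sub] at e1
    rw [hd, map_sub, mul_sub, coeff_sub] at e2
    rw [mul_sub, coeff_sub]
    linear_combination e2 - e1 - i1 + i2
  have hS : powSums B₁ q - powSums B₂ q = 0 := by
    by_contra hne
    have h1 := hzero (N + (powSums B₁ q - powSums B₂ q).natDegree) (Nat.le_add_right _ _)
    have hmon := Matrix.charpoly_monic B₁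
    have hdeg : B₁.charpoly.natDegree = N := Matrix.charpoly_natDegree_eq_dim B₁
    rw [← hdeg, coeff_mul_degree_add_degree, hmon.leadingCoeff, one_mul] at h1
    exact hne (leadingCoeff_eq_zero.mp h1)
  have := congrArg (fun p : A[X] => p.coeff (q - k)) (sub_eq_zero.mp hS)
  simp only [powSums, finsetSum_coeff, coeff_C_mul_X_pow] at this
  rw [Finset.sum_eq_single_of_mem k (Finset.mem_range.mpr (by omega))
      (fun i hi hik => if_neg (by rw [Finset.mem_range] at hi; omega)),
    Finset.sum_eq_single_of_mem k (Finset.mem_range.mpr (by omega))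
      (fun i hi hik => if_neg (by rw [Finset.mem_range] at hi; omega))] at this
  simpa using this

end Vale.Agent.P199.Spec
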