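import Vale.Agent.P199.Spec.Global

/-!
# The approximate `r`-th root of a monic polynomial

For `h` monic of degree `r * q` over a ring in which `r` is invertible, `rootPoly q r h` is the
unique monic `g` of degree `q` with `(h - g ^ r).coeff m = 0` whenever `r * q ≤ m + q`.
-/

namespace Vale.Agent.P199.Spec

open Polynomial

variable {A B : Type*} [CommRing A] [CommRing B]

theorem pow_top_coeff {g : A[X]} {q : ℕ} (hg : g.Monic) (hgq : g.natDegree = q) (r : ℕ) :
    (g ^ r).coeff (r * q) = 1 := by
  have h := (hg.pow r).coeff_natDegree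
  rwa [hg.natDegree_pow, hgq] at h

/-- Adding a monomial of degree `e < q` changes `g ^ r` at degree `(r-1) q + e` by `r` times
its coefficient and fixes all higher coefficients. -/
theorem pow_add_monomial {g : A[X]} {q : ℕ} (hg : g.Monic) (hgq : g.natDegree = q) (c : A)
    {e : ℕ} (he : e < q) (r : ℕ) :
    (∀ m, (r - 1) * q + e < m → ((g + C c * X ^ e) ^ r).coeff m = (g ^ r).coeff m) ∧
      ((g + C c * X ^ e) ^ r).coeff ((r - 1) * q + e)
        = (g ^ r).coeff ((r - 1) * q + e) + r * c := by
  induction r with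
  | zero => simp
  | succ r ih =>
    set g' := g + C c * X ^ e with hg'
    have hdeg : g'.natDegree ≤ q := by
      refine (natDegree_add_le _ _).trans (max_le hgq.le ?_)
      exact (natDegree_C_mul_X_pow_le _ _).trans he.le
    have hg'q : g'.coeff q = 1 := by
      rw [hg', coeff_add, coeff_C_mul_X_pow, if_neg (by omega), add_zero, ← hgq]
      exact hg.coeff_natDegree
    have hsucc : r + 1 - 1 = r := rfl
    rw [hsucc]
    have hexp : g' ^ (r + 1) = (g' ^ r - g ^ r) * g' + g ^ (r + 1) + g ^ r * (C c * X ^ e) := by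
      rw [hg']; ring
    have hpowdeg : (g ^ r).natDegree = r * q := by rw [hg.natDegree_pow, hgq]
    have hA : ∀ m, r * q + e < m + 0 → ((g' ^ r - g ^ r) * g').coeff m = 0 := by
      intro m hm
      rcases Nat.eq_zero_or_pos r with rfl | hr
      · simp
      rw [coeff_mul]
      refine Finset.sum_eq_zero fun x hx => ?_
      rw [Finset.HasAntidiagonal.mem_antidiagonal] at hx
      by_cases hx2 : q < x.2
      · rw [coeff_eq_zero_of_natDegree_lt (lt_of_le_of_lt hdeg hx2), mul_zero]
      · have : r * q = (r - 1) * q + q := by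
          obtain ⟨r', rfl⟩ := Nat.exists_eq_succ_of_ne_zero hr.ne'
          rw [Nat.succ_sub_one, Nat.succ_mul]
        rw [coeff_sub, ih.1 x.1 (by omega), sub_self, zero_mul]
    have hB : ((g' ^ r - g ^ r) * g').coeff (r * q + e) = r * c := by
      rcases Nat.eq_zero_or_pos r with rfl | hr
      · simp
      have : r * q = (r - 1) * q + q := by
        obtain ⟨r', rfl⟩ := Nat.exists_eq_succ_of_ne_zero hr.ne'
        rw [Nat.succ_sub_one, Nat.succ_mul]
      rw [coeff_mul, Finset.sum_eq_single_of_mem ((r - 1) * q + e, q)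
        (Finset.HasAntidiagonal.mem_antidiagonal.mpr (by omega))]
      · rw [coeff_sub, ih.2, hg'q, mul_one]; ring
      · intro x hx hne
        rw [Finset.HasAntidiagonal.mem_antidiagonal] at hx
        by_cases hx2 : q < x.2
        · rw [coeff_eq_zero_of_natDegree_lt (lt_of_le_of_lt hdeg hx2), mul_zero]
        · have : (r - 1) * q + e < x.1 := by
            rcases lt_trichotomy ((r - 1) * q + e) x.1 with h | h | h
            · exact h
            · exact absurd (Prod.ext h.symm (by omega : x.2 = q)) hne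
            · omega
          rw [coeff_sub, ih.1 x.1 this, sub_self, zero_mul]
    refine ⟨fun m hm => ?_, ?_⟩
    · rw [hexp, coeff_add, coeff_add, hA m (by omega), zero_add, ← mul_assoc,
        coeff_mul_X_pow', if_pos (by omega), coeff_mul_C,
        coeff_eq_zero_of_natDegree_lt (p := g ^ r) (by omega), zero_mul, add_zero]
    · rw [hexp, coeff_add, coeff_add, hB, ← mul_assoc, coeff_mul_X_pow', if_pos (by omega),
        coeff_mul_C, Nat.add_sub_cancel, pow_top_coeff hg hgq]
      push_cast; ring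

theorem exists_root (q r : ℕ) (hr : IsUnit (r : A)) (hr0 : r ≠ 0) (h : A[X]) (hh : h.Monic)
    (hhd : h.natDegree = r * q) :
    ∃ g : A[X], g.Monic ∧ g.natDegree = q ∧ ∀ m, r * q ≤ m + q → (h - g ^ r).coeff m = 0 := by
  rcases subsingleton_or_nontrivial A with hA | hA
  · have hq : q = 0 := by
      have := h.natDegree_of_subsingleton
      rw [hhd] at this
      exact (Nat.mul_eq_zero.mp this).resolve_left hr0
    exact ⟨1, monic_one, by simp [hq], fun _ _ => Subsingleton.elim _ _⟩
  suffices hstep : ∀ j, j ≤ q → ∃ g : A[X], g.Monic ∧ g.natDegree = q ∧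
      ∀ m, r * q ≤ m + j → (h - g ^ r).coeff m = 0 by exact hstep q le_rfl
  intro j
  induction j with
  | zero =>
    intro _
    refine ⟨X ^ q, monic_X_pow q, natDegree_X_pow q, fun m hm => ?_⟩
    rw [coeff_sub, ← pow_mul, coeff_X_pow, mul_comm q r]
    rcases eq_or_lt_of_le (show r * q ≤ m by omega) with h1 | h1
    · rw [if_pos h1.symm, ← h1, ← hhd, hh.coeff_natDegree, sub_self]
    · rw [if_neg (by omega), coeff_eq_zero_of_natDegree_lt (by omega), sub_zero]
  | succ j ih =>
    intro hj
    obtain ⟨g, hg, hgq, hgc⟩ := ih (by omega)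
    have hmq : (r - 1) * q + q = r * q := by
      obtain ⟨r', rfl⟩ := Nat.exists_eq_succ_of_ne_zero hr0
      rw [Nat.succ_sub_one, Nat.succ_mul]
    set e := q - (j + 1) with he
    let c : A := (h - g ^ r).coeff ((r - 1) * q + e) * ((hr.unit⁻¹ : Aˣ) : A)
    obtain ⟨h1, h2⟩ := pow_add_monomial hg hgq c (show e < q by omega) r
    have hlt : (C c * X ^ e).degree < g.degree := by
      refine (degree_C_mul_X_pow_le _ _).trans_lt ?_
      rw [degree_eq_natDegree hg.ne_zero, hgq]
      exact_mod_cast (show e < q by omega)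
    refine ⟨g + C c * X ^ e, hg.add_of_left hlt, ?_, fun m hm => ?_⟩
    · rw [natDegree_eq_of_degree_eq (degree_add_eq_left_of_degree_lt hlt), hgq]
    · rw [coeff_sub]
      rcases eq_or_lt_of_le (show (r - 1) * q + e ≤ m by omega) with hm' | hm'
      · rw [← hm', h2]
        have : (r : A) * c = (h - g ^ r).coeff ((r - 1) * q + e) := by
          show (r : A) * ((h - g ^ r).coeff ((r - 1) * q + e) * _) = _
          rw [mul_left_comm, IsUnit.mul_val_inv, mul_one]
        rw [coeff_sub] at this
        linear_combination -this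
      · rw [h1 m hm', ← coeff_sub]
        exact hgc m (by omega)

theorem root_unique (q r : ℕ) (hr : IsUnit (r : A)) {f g : A[X]} (hf : f.Monic) (hg : g.Monic)
    (hfq : f.natDegree = q) (hgq : g.natDegree = q)
    (h : ∀ m, r * q ≤ m + q → (f ^ r).coeff m = (g ^ r).coeff m) : f = g := by
  by_contra hne
  have hd : f - g ≠ 0 := sub_ne_zero.mpr hne
  set d := f - g with hdd
  set S := ∑ i ∈ Finset.range r, f ^ i * g ^ (r - 1 - i) with hS
  have hfac : f ^ r - g ^ r = d * S := by
    rw [hdd, hS, mul_comm, geom_sum₂_mul]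
  have : Nontrivial A := nontrivial_of_ne (d.leadingCoeff) 0 (leadingCoeff_ne_zero.mpr hd)
  have hr0 : r ≠ 0 := by rintro rfl; simp at hr
  have hterm : ∀ i ∈ Finset.range r,
      (f ^ i * g ^ (r - 1 - i)).coeff ((r - 1) * q) = 1 ∧
      (f ^ i * g ^ (r - 1 - i)).natDegree = (r - 1) * q := by
    intro i hi
    rw [Finset.mem_range] at hi
    have hm : (f ^ i * g ^ (r - 1 - i)).Monic := (hf.pow i).mul (hg.pow _)
    have hd : (f ^ i * g ^ (r - 1 - i)).natDegree = (r - 1) * q := by
      rw [(hf.pow i).natDegree_mul (hg.pow _), hf.natDegree_pow, hg.natDegree_pow, hfq, hgq,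
        ← add_mul]
      congr 1; omega
    exact ⟨hd ▸ hm.coeff_natDegree, hd⟩
  have hSc : S.coeff ((r - 1) * q) = (r : A) := by
    rw [hS, finsetSum_coeff, Finset.sum_congr rfl fun i hi => (hterm i hi).1]
    simp
  have hSd : S.natDegree = (r - 1) * q :=
    le_antisymm (natDegree_sum_le_of_forall_le _ _ fun i hi => ((hterm i hi).2).le)
      (le_natDegree_of_ne_zero (by rw [hSc]; exact hr.ne_zero))
  have h1 := h (d.natDegree + S.natDegree) (by
    rw [hSd]
    obtain ⟨r', rfl⟩ := Nat.exists_eq_succ_of_ne_zero hr0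
    rw [Nat.succ_sub_one, Nat.succ_mul]; omega)
  rw [← sub_eq_zero, ← coeff_sub, hfac, coeff_mul_degree_add_degree,
    show S.leadingCoeff = (r : A) by rw [Polynomial.leadingCoeff, hSd, hSc],
    hr.mul_left_eq_zero] at h1
  exact hd (leadingCoeff_eq_zero.mp h1)

open Classical in
/-- The approximate `r`-th root of `h`, of degree `q`. -/
noncomputable def rootPoly (q r : ℕ) (h : A[X]) : A[X] :=
  if hh : ∃ g : A[X], g.Monic ∧ g.natDegree = q ∧ ∀ m, r * q ≤ m + q → (h - g ^ r).coeff m = 0
  then hh.choose else X ^ q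

theorem rootPoly_spec (q r : ℕ) (hr : IsUnit (r : A)) (hr0 : r ≠ 0) {h : A[X]} (hh : h.Monic)
    (hhd : h.natDegree = r * q) :
    (rootPoly q r h).Monic ∧ (rootPoly q r h).natDegree = q ∧
      ∀ m, r * q ≤ m + q → (h - rootPoly q r h ^ r).coeff m = 0 := by
  have he := exists_root q r hr hr0 h hh hhd
  rw [rootPoly, dif_pos he]
  exact he.choose_spec

theorem rootPoly_eq (q r : ℕ) (hr : IsUnit (r : A)) (hr0 : r ≠ 0) {h g : A[X]} (hh : h.Monic)
    (hhd : h.natDegree = r * q) (hg : g.Monic) (hgq : g.natDegree = q)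
    (hc : ∀ m, r * q ≤ m + q → (h - g ^ r).coeff m = 0) : rootPoly q r h = g := by
  obtain ⟨h1, h2, h3⟩ := rootPoly_spec q r hr hr0 hh hhd
  refine root_unique q r hr h1 hg h2 hgq fun m hm => ?_
  have e1 := h3 m hm
  have e2 := hc m hm
  rw [coeff_sub] at e1 e2
  linear_combination e2 - e1

theorem rootPoly_map [Nontrivial B] (φ : A →+* B) (q r : ℕ) (hr : IsUnit (r : A)) (hr0 : r ≠ 0)
    {h : A[X]} (hh : h.Monic) (hhd : h.natDegree = r * q) :
    rootPoly q r (h.map φ) = (rootPoly q r h).map φ := by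
  obtain ⟨h1, h2, h3⟩ := rootPoly_spec q r hr hr0 hh hhd
  refine rootPoly_eq q r (by rw [← map_natCast φ r]; exact hr.map φ) hr0 (hh.map φ)
    ((hh.natDegree_map φ).trans hhd) (h1.map φ) ((h1.natDegree_map φ).trans h2) fun m hm => ?_
  rw [← Polynomial.map_pow, ← Polynomial.map_sub, coeff_map, h3 m hm, map_zero]

end Vale.Agent.P199.Spec
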